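import Vale.Agent.P366.H896.D.A

/-! The equations of Gauss and Codazzi for a hypersurface `t = f(y)`: notation. -/

open MeasureTheory Metric Filter Topology Set
open scoped ContDiff

noncomputable section
namespace Vale.Agent.P366.GC
open Vale.Agent.P366.Stmt Vale.Agent.P366.T2
open Vale.Agent.P366.H896 (CR)
open Vale.Agent.P366.Kerr (pt tng con indG indK lapse)

variable {n : ℕ}

/-- The hypersurface `t = f(y)`, `y ∈ W`, is spacelike in the spacetime with the metric `G`. -/
structure Sl (G : Stmt.Field (n + 1)) (f : E n → ℝ) (U : Set (E (n + 1))) (W : Set (E n)) : Prop where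
  met : Met G U
  opW : IsOpen W
  sf : CR 6 W f
  map : ∀ y ∈ W, pt (f y) y ∈ U
  neg : ∀ y ∈ W, ∑ a, ∑ b, up G a b (pt (f y) y) * con f y a * con f y b < 0
  det : ∀ y ∈ W, (mat (indG G f) y).det ≠ 0

/-- The coordinate vector field `T_j` of the hypersurface. -/
def Tv (f : E n → ℝ) (j : Fin n) (a : Fin (n + 1)) (y : E n) : ℝ := tng f j y a

/-- The future unit normal `N`. -/
def Nv (G : Stmt.Field (n + 1)) (f : E n → ℝ) (a : Fin (n + 1)) (y : E n) : ℝ :=
  -(lapse G f y * ∑ b, up G a b (pt (f y) y) * con f y b)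

/-- The covariant derivative `D_i` along the hypersurface of the vector field `X`. -/
def Dv (G : Stmt.Field (n + 1)) (f : E n → ℝ) (i : Fin n) (X : Fin (n + 1) → E n → ℝ)
    (a : Fin (n + 1)) (y : E n) : ℝ :=
  pd i (X a) y + ∑ b, ∑ c, chr G a b c (pt (f y) y) * Tv f i b y * X c y

/-- The scalar product of two vector fields along the hypersurface. -/
def ip (G : Stmt.Field (n + 1)) (f : E n → ℝ) (X Y : Fin (n + 1) → E n → ℝ) (y : E n) : ℝ :=
  ∑ a, ∑ b, G (pt (f y) y) a b * X a y * Y b y

/-- The covariant derivative `∇_k K_{ij}`. -/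
def cdK (h K : Stmt.Field n) (k i j : Fin n) (y : E n) : ℝ :=
  pd k (fun y => K y i j) y - ∑ l, (chr h l k i y * K y l j + chr h l k j y * K y i l)

end Vale.Agent.P366.GC
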