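import Vale.Agent.P366.H896.D.B

/-! The hypersurface `t = f(y)`: the formulas of Gauss and Weingarten. -/

open MeasureTheory Metric Filter Topology Set
open scoped ContDiff

noncomputable section
namespace Vale.Agent.P366.GC
open Vale.Agent.P366.Stmt Vale.Agent.P366.T2
open Vale.Agent.P366.H896 (CR CU pd_comm pd_congrU)
open Vale.Agent.P366.Kerr (pt tng con indG indK lapse ein ric)

variable {n : ℕ} {G : Stmt.Field (n + 1)} {f : E n → ℝ} {U : Set (E (n + 1))} {W : Set (E n)}
  {X Y : Fin (n + 1) → E n → ℝ} {y : E n}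

section
variable (hS : Sl G f U W)
include hS

theorem met_h : Met (indG G f) W where
  op := hS.opW
  sm i j := CR.sum _ fun a => CR.sum _ fun b =>
    ((cr_comp hS le_rfl (hS.met.sm a b)).mul (cr_T hS i a)).mul (cr_T hS j b)
  symm _ hy i j := ip_symm hS hy (Tv f i) (Tv f j)
  det := hS.det

omit hS in
lemma ip_lin {Z : Fin (n + 1) → E n → ℝ} {α : ℝ} {β : Fin n → ℝ}
    (hZ : ∀ a, Z a y = α * Nv G f a y + ∑ j, β j * Tv f j a y) (X : Fin (n + 1) → E n → ℝ) :
    ip G f X Z y = α * ip G f X (Nv G f) y + ∑ j, β j * ip G f X (Tv f j) y := by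
  unfold ip
  simp only [hZ]
  have e1 : ∀ a b, G (pt (f y) y) a b * X a y * (α * Nv G f b y + ∑ j, β j * Tv f j b y) =
      α * (G (pt (f y) y) a b * X a y * Nv G f b y) +
      ∑ j, β j * (G (pt (f y) y) a b * X a y * Tv f j b y) := by
    intro a b
    rw [mul_add, Finset.mul_sum]
    congr 1
    · ring
    · exact Finset.sum_congr rfl fun j _ => by ring
  simp only [e1, Finset.sum_add_distrib, ← Finset.mul_sum]
  congr 1
  have e2 : ∀ a, ∑ b, ∑ j, β j * (G (pt (f y) y) a b * X a y * Tv f j b y) =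
      ∑ j, β j * ∑ b, G (pt (f y) y) a b * X a y * Tv f j b y := by
    intro a
    rw [Finset.sum_comm]
    exact Finset.sum_congr rfl fun j _ => by rw [Finset.mul_sum]
  simp only [e2]
  rw [Finset.sum_comm]
  exact Finset.sum_congr rfl fun j _ => by rw [Finset.mul_sum]

/-- the expansion of a vector in the frame -/
theorem expand (hy : y ∈ W) (Z : Fin (n + 1) → E n → ℝ) (a : Fin (n + 1)) :
    Z a y = ∑ k, ∑ l, up (indG G f) k l y * ip G f Z (Tv f k) y * Tv f l a y -
      ip G f Z (Nv G f) y * Nv G f a y := by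
  obtain ⟨α, β, hZ⟩ := span hS hy fun a => Z a y
  have hM := met_h hS
  have h1 : ip G f Z (Nv G f) y = -α := by
    rw [ip_symm hS hy, ip_lin hZ, ip_N_N hS hy]
    simp only [ip_N_T hS hy]
    simp
  have h2 : ∀ k, ip G f Z (Tv f k) y = ∑ j, β j * indG G f y k j := by
    intro k
    rw [ip_symm hS hy, ip_lin hZ, ip_symm hS hy, ip_N_T hS hy, mul_zero, zero_add]
    rfl
  rw [h1, hZ a]
  have h3 : ∑ k, ∑ l, up (indG G f) k l y * ip G f Z (Tv f k) y * Tv f l a y =
      ∑ j, β j * Tv f j a y := by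
    simp only [h2]
    have e1 : ∀ k l, up (indG G f) k l y * (∑ j, β j * indG G f y k j) * Tv f l a y =
        ∑ j, (β j * Tv f l a y) * (up (indG G f) l k y * indG G f y k j) := by
      intro k l
      rw [hM.up_symm hy k l, Finset.mul_sum, Finset.sum_mul]
      exact Finset.sum_congr rfl fun j _ => by ring
    simp only [e1]
    rw [Finset.sum_comm]
    have e2 : ∀ l, ∑ k, ∑ j, (β j * Tv f l a y) * (up (indG G f) l k y * indG G f y k j) =
        β l * Tv f l a y := by
      intro l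
      rw [Finset.sum_comm]
      simp only [← Finset.mul_sum, hM.up_g hy]
      simp
    simp only [e2]
  rw [h3]
  ring

theorem up_dec (hy : y ∈ W) (a b : Fin (n + 1)) :
    up G a b (pt (f y) y) = ∑ k, ∑ l, up (indG G f) k l y * Tv f k a y * Tv f l b y -
      Nv G f a y * Nv G f b y := by
  have h1 : ∀ X : Fin (n + 1) → E n → ℝ,
      ip G f (fun c y => up G a c (pt (f y) y)) X y = X a y := by
    intro X
    unfold ip
    have e1 : ∀ c d, G (pt (f y) y) c d * up G a c (pt (f y) y) * X d y =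
        X d y * (up G a c (pt (f y) y) * G (pt (f y) y) c d) := fun c d => by ring
    simp only [e1]
    rw [Finset.sum_comm]
    simp only [← Finset.mul_sum, hS.met.up_g (hS.map y hy)]
    simp
  have h2 := expand hS hy (fun c y => up G a c (pt (f y) y)) b
  simp only [h1] at h2
  exact h2

lemma hp_gc (hy : y ∈ W) (i : Fin n) (a b : Fin (n + 1)) :
    HP i (fun y => G (pt (f y) y) a b)
      (∑ c, Tv f i c y * (∑ d, G (pt (f y) y) b d * Stmt.chr G d c a (pt (f y) y) +
        ∑ d, G (pt (f y) y) a d * Stmt.chr G d c b (pt (f y) y))) y := by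
  have h1 := hp_comp hS hy ((hS.met.sm a b).le (by norm_num)) i
  simp only [hS.met.compat (hS.map y hy)] at h1
  exact h1

theorem hp_ip (hX : ∀ a, CR 1 W (X a)) (hY : ∀ a, CR 1 W (Y a)) (hy : y ∈ W) (i : Fin n) :
    HP i (ip G f X Y) (ip G f (Dv G f i X) Y y + ip G f X (Dv G f i Y) y) y := by
  have h1 : HP i (ip G f X Y) (∑ a, ∑ b,
      (((∑ c, Tv f i c y * (∑ d, G (pt (f y) y) b d * Stmt.chr G d c a (pt (f y) y) +
        ∑ d, G (pt (f y) y) a d * Stmt.chr G d c b (pt (f y) y))) * X a y +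
        G (pt (f y) y) a b * Stmt.pd i (X a) y) * Y b y +
        G (pt (f y) y) a b * X a y * Stmt.pd i (Y b) y)) y :=
    HP.sum _ fun a _ => HP.sum _ fun b _ =>
      ((hp_gc hS hy i a b).mul (CR.hp (hX a) hy i)).mul (CR.hp (hY b) hy i)
  convert h1 using 1
  have hs := hS.met.symm _ (hS.map y hy)
  unfold ip Dv
  have e1 : ∀ a b, (((∑ c, Tv f i c y * (∑ d, G (pt (f y) y) b d * Stmt.chr G d c a (pt (f y) y) +
        ∑ d, G (pt (f y) y) a d * Stmt.chr G d c b (pt (f y) y))) * X a y +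
        G (pt (f y) y) a b * Stmt.pd i (X a) y) * Y b y +
        G (pt (f y) y) a b * X a y * Stmt.pd i (Y b) y) =
      G (pt (f y) y) a b * Stmt.pd i (X a) y * Y b y +
      G (pt (f y) y) a b * X a y * Stmt.pd i (Y b) y +
      ∑ d, G (pt (f y) y) d b * (∑ c, Stmt.chr G d c a (pt (f y) y) * Tv f i c y * X a y) * Y b y +
      ∑ d, G (pt (f y) y) a d * X a y *
        (∑ c, Stmt.chr G d c b (pt (f y) y) * Tv f i c y * Y b y) := by
    intro a b
    have e2 : (∑ c, Tv f i c y * (∑ d, G (pt (f y) y) b d * Stmt.chr G d c a (pt (f y) y) +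
        ∑ d, G (pt (f y) y) a d * Stmt.chr G d c b (pt (f y) y))) * X a y * Y b y =
        ∑ d, G (pt (f y) y) d b * (∑ c, Stmt.chr G d c a (pt (f y) y) * Tv f i c y * X a y) *
          Y b y + ∑ d, G (pt (f y) y) a d * X a y *
        (∑ c, Stmt.chr G d c b (pt (f y) y) * Tv f i c y * Y b y) := by
      simp only [mul_add, Finset.mul_sum, Finset.sum_mul, Finset.sum_add_distrib, add_mul]
      congr 1
      · rw [Finset.sum_comm]
        exact Finset.sum_congr rfl fun d _ => Finset.sum_congr rfl fun c _ => by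
          rw [hs b d]; ring
      · rw [Finset.sum_comm]
        exact Finset.sum_congr rfl fun d _ => Finset.sum_congr rfl fun c _ => by ring
    linear_combination e2
  simp only [e1, Finset.sum_add_distrib]
  have e3 : ∑ a, ∑ b, ∑ d, G (pt (f y) y) d b *
      (∑ c, Stmt.chr G d c a (pt (f y) y) * Tv f i c y * X a y) * Y b y =
      ∑ a, ∑ b, G (pt (f y) y) a b *
        (∑ c, ∑ d, Stmt.chr G a c d (pt (f y) y) * Tv f i c y * X d y) * Y b y := by
    have e4 : ∀ a b, G (pt (f y) y) a b *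
        (∑ c, ∑ d, Stmt.chr G a c d (pt (f y) y) * Tv f i c y * X d y) * Y b y =
        ∑ d, G (pt (f y) y) a b *
          (∑ c, Stmt.chr G a c d (pt (f y) y) * Tv f i c y * X d y) * Y b y := by
      intro a b
      rw [Finset.sum_comm, Finset.mul_sum, Finset.sum_mul]
    simp only [e4]
    calc _ = ∑ a, ∑ d, ∑ b, G (pt (f y) y) d b *
          (∑ c, Stmt.chr G d c a (pt (f y) y) * Tv f i c y * X a y) * Y b y :=
          Finset.sum_congr rfl fun a _ => Finset.sum_comm
      _ = ∑ d, ∑ a, ∑ b, G (pt (f y) y) d b *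
          (∑ c, Stmt.chr G d c a (pt (f y) y) * Tv f i c y * X a y) * Y b y := Finset.sum_comm
      _ = _ := Finset.sum_congr rfl fun d _ => Finset.sum_comm
  have e5 : ∑ a, ∑ b, ∑ d, G (pt (f y) y) a d * X a y *
        (∑ c, Stmt.chr G d c b (pt (f y) y) * Tv f i c y * Y b y) =
      ∑ a, ∑ b, G (pt (f y) y) a b * X a y *
        (∑ c, ∑ d, Stmt.chr G b c d (pt (f y) y) * Tv f i c y * Y d y) := by
    refine Finset.sum_congr rfl fun a _ => ?_
    rw [Finset.sum_comm]
    refine Finset.sum_congr rfl fun b _ => ?_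
    rw [← Finset.mul_sum]
    congr 1
    exact Finset.sum_comm
  rw [e3, e5]
  simp only [mul_add, add_mul, Finset.sum_add_distrib]
  ring

lemma ip_D_T (hy : y ∈ W) (i j k : Fin n) : ip G f (Dv G f i (Tv f j)) (Tv f k) y =
    (Stmt.pd i (fun y => indG G f y j k) y + Stmt.pd j (fun y => indG G f y i k) y -
      Stmt.pd k (fun y => indG G f y i j) y) / 2 := by
  have hT : ∀ j a, CR 1 W (Tv f j a) := fun j a => (cr_T hS j a).le (by norm_num)
  have h1 : ∀ i j k, Stmt.pd i (fun y => indG G f y j k) y =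
      ip G f (Dv G f i (Tv f j)) (Tv f k) y + ip G f (Tv f j) (Dv G f i (Tv f k)) y :=
    fun i j k => (hp_ip hS (hT j) (hT k) hy i).pd
  have h2 : ∀ i j, ∀ a, Dv G f i (Tv f j) a y = Dv G f j (Tv f i) a y := by
    intro i j a
    unfold Dv
    rw [pdT_symm hS hy i j a]
    congr 1
    rw [Finset.sum_comm]
    exact Finset.sum_congr rfl fun b _ => Finset.sum_congr rfl fun c _ => by
      rw [hS.met.chr_symm (hS.map y hy) a c b]; ring
  have h3 : ∀ i j (Z : Fin (n + 1) → E n → ℝ), ip G f (Dv G f i (Tv f j)) Z y =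
      ip G f (Dv G f j (Tv f i)) Z y := by
    intro i j Z
    unfold ip
    simp only [h2 i j]
  have h4 : ∀ i j k, ip G f (Tv f j) (Dv G f i (Tv f k)) y =
      ip G f (Dv G f i (Tv f k)) (Tv f j) y := fun i j k => ip_symm hS hy _ _
  rw [h1 i j k, h1 j i k, h1 k i j, h4 i j k, h4 j i k, h4 k i j, h3 j i, h3 k i, h3 k j]
  ring

lemma ip_D_N (hy : y ∈ W) (i j : Fin n) :
    ip G f (Dv G f i (Tv f j)) (Nv G f) y = - indK G f y i j := by
  rw [ip_symm hS hy, ip_N hS hy]
  unfold indK Dv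
  congr 2
  simp only [mul_add, Finset.sum_add_distrib]
  congr 1
  rw [Fin.sum_univ_succ]
  have e : ∀ k : Fin n, Stmt.pd i (Tv f j k.succ) y = 0 := by
    intro k
    have e : Tv f j k.succ = fun _ => if k = j then 1 else 0 := funext fun y => Tv_succ f j k y
    rw [e, (HP.const i _ y).pd]
  simp only [e, con_zero, mul_zero, Finset.sum_const_zero, add_zero, one_mul]
  rfl

/-- the Gauss formula -/
theorem gauss_formula (hy : y ∈ W) (i j : Fin n) (a : Fin (n + 1)) :
    Dv G f i (Tv f j) a y = ∑ l, Stmt.chr (indG G f) l i j y * Tv f l a y +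
      indK G f y i j * Nv G f a y := by
  rw [expand hS hy (Dv G f i (Tv f j)) a, ip_D_N hS hy]
  simp only [ip_D_T hS hy]
  rw [neg_mul, sub_neg_eq_add]
  congr 1
  rw [Finset.sum_comm]
  refine Finset.sum_congr rfl fun l _ => ?_
  unfold Stmt.chr
  rw [← Finset.sum_mul]
  congr 1
  rw [Finset.sum_div]
  refine Finset.sum_congr rfl fun k _ => ?_
  rw [(met_h hS).up_symm hy k l]
  ring

lemma ip_DN_T (hy : y ∈ W) (i k : Fin n) :
    ip G f (Dv G f i (Nv G f)) (Tv f k) y = indK G f y i k := by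
  have h1 := (hp_ip hS (X := Nv G f) (Y := Tv f k) (fun a => (cr_N hS a).le (by norm_num))
    (fun a => (cr_T hS k a).le (by norm_num)) hy i)
  have h2 : HP i (ip G f (Nv G f) (Tv f k)) 0 y :=
    (HP.const i 0 y).congr (by
      filter_upwards [hS.opW.mem_nhds hy] with z hz
      exact ip_N_T hS hz k)
  have h3 := h1.pd.symm.trans h2.pd
  rw [ip_symm hS hy (Nv G f), ip_D_N hS hy] at h3
  linarith

lemma ip_DN_N (hy : y ∈ W) (i : Fin n) : ip G f (Dv G f i (Nv G f)) (Nv G f) y = 0 := by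
  have h1 := (hp_ip hS (X := Nv G f) (Y := Nv G f) (fun a => (cr_N hS a).le (by norm_num))
    (fun a => (cr_N hS a).le (by norm_num)) hy i)
  have h2 : HP i (ip G f (Nv G f) (Nv G f)) 0 y :=
    (HP.const i (-1) y).congr (by
      filter_upwards [hS.opW.mem_nhds hy] with z hz
      exact ip_N_N hS hz)
  have h3 := h1.pd.symm.trans h2.pd
  rw [ip_symm hS hy (Nv G f)] at h3
  linarith

/-- the Weingarten formula -/
theorem weingarten (hy : y ∈ W) (i : Fin n) (a : Fin (n + 1)) :
    Dv G f i (Nv G f) a y = ∑ k, ∑ l, up (indG G f) k l y * indK G f y i k * Tv f l a y := by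
  rw [expand hS hy (Dv G f i (Nv G f)) a, ip_DN_N hS hy, zero_mul, sub_zero]
  simp only [ip_DN_T hS hy]

end

end Vale.Agent.P366.GC
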