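import Vale.Agent.P366.H896.X1a
import Vale.Agent.P366.Kerr.Defs

/-! The Levi-Civita connection and the Riemann tensor of a pseudo-Riemannian metric in
coordinates. -/

open MeasureTheory Metric Filter Topology Set
open scoped ContDiff

noncomputable section
namespace Vale.Agent.P366.GC
open Vale.Agent.P366.Stmt Vale.Agent.P366.T2
open Vale.Agent.P366.H896 (CR CU pd_comm pd_congrU)

variable {m k : ℕ} {U : Set (E m)} {r : ℕ}

/-! ### calculus -/

lemma cr_inv {f : E m → ℝ} (hf : CR r U f) (h0 : ∀ x ∈ U, f x ≠ 0) :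
    CR r U fun x => (f x)⁻¹ := fun x hx => (hf x hx).inv (h0 x hx)

lemma cr_prod {ι : Type*} (s : Finset ι) {f : ι → E m → ℝ} (hf : ∀ i, CR r U (f i)) :
    CR r U fun x => ∏ i ∈ s, f i x := fun x hx => by
  classical
  induction s using Finset.induction_on with
  | empty => simpa using (contDiffAt_const (𝕜 := ℝ) (c := (1 : ℝ)) (x := x))
  | insert a s ha ih =>
    simp only [Finset.prod_insert ha]
    exact (hf a x hx).mul ih

lemma cr_det {A : E m → Matrix (Fin k) (Fin k) ℝ} (hA : ∀ i j, CR r U fun x => A x i j) :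
    CR r U fun x => (A x).det := by
  simp only [Matrix.det_apply']
  exact CR.sum _ fun σ => (CR.const _).mul (cr_prod _ fun i => hA _ _)

/-- A symmetric nondegenerate tensor with continuous derivatives up to order four. -/
structure Met (g : Field m) (U : Set (E m)) : Prop where
  op : IsOpen U
  sm : ∀ a b, CR 4 U fun x => g x a b
  symm : ∀ x ∈ U, ∀ a b, g x a b = g x b a
  det : ∀ x ∈ U, (mat g x).det ≠ 0

/-- The Riemann tensor `R^a_{b c d}`. -/
def Rm (g : Field m) (a b c d : Fin m) (x : E m) : ℝ :=
  pd c (chr g a d b) x - pd d (chr g a c b) x +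
    ∑ e, (chr g a c e x * chr g e d b x - chr g a d e x * chr g e c b x)

/-- The Riemann tensor `R_{a b c d}`. -/
def RL (g : Field m) (a b c d : Fin m) (x : E m) : ℝ := ∑ e, g x a e * Rm g e b c d x

namespace Met

variable {g : Field m} (h : Met g U) {x : E m}
include h

lemma g_up (hx : x ∈ U) (a b : Fin m) :
    ∑ c, g x a c * up g c b x = if a = b then 1 else 0 := by
  have h1 : mat g x * (mat g x)⁻¹ = 1 := Matrix.mul_nonsing_inv _ (isUnit_iff_ne_zero.2 (h.det x hx))
  have h2 := congrFun (congrFun h1 a) b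
  rw [Matrix.mul_apply, Matrix.one_apply] at h2
  exact h2

lemma up_g (hx : x ∈ U) (a b : Fin m) :
    ∑ c, up g a c x * g x c b = if a = b then 1 else 0 := by
  have h1 : (mat g x)⁻¹ * mat g x = 1 := Matrix.nonsing_inv_mul _ (isUnit_iff_ne_zero.2 (h.det x hx))
  have h2 := congrFun (congrFun h1 a) b
  rw [Matrix.mul_apply, Matrix.one_apply] at h2
  exact h2

lemma up_symm (hx : x ∈ U) (a b : Fin m) : up g a b x = up g b a x := by
  have h1 : (mat g x).transpose = mat g x := by
    ext i j
    exact h.symm x hx j i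
  have h2 : ((mat g x)⁻¹).transpose = (mat g x)⁻¹ := by rw [Matrix.transpose_nonsing_inv, h1]
  have h3 := congrFun (congrFun h2 b) a
  exact h3

lemma cr_up (a b : Fin m) : CR 4 U (up g a b) := by
  classical
  have e1 : ∀ x, up g a b x = ((mat g x).det)⁻¹ *
      ((mat g x).updateRow b (Pi.single a 1)).det := by
    intro x
    unfold up
    rw [Matrix.inv_def, Ring.inverse_eq_inv', Matrix.smul_apply, smul_eq_mul,
      Matrix.adjugate_apply]
  have e2 : up g a b = fun x => ((mat g x).det)⁻¹ *
      ((mat g x).updateRow b (Pi.single a 1)).det := funext e1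
  rw [e2]
  refine (cr_inv (cr_det fun i j => h.sm i j) h.det).mul (cr_det fun i j => ?_)
  by_cases hi : i = b
  · subst hi
    simp only [Matrix.updateRow_self]
    exact CR.const _
  · simp only [Matrix.updateRow_ne hi]
    exact h.sm i j

lemma pdg_symm (hx : x ∈ U) (c a b : Fin m) :
    pd c (fun y => g y a b) x = pd c (fun y => g y b a) x :=
  pd_congrU h.op hx (fun y hy => h.symm y hy a b) c

/-- the Christoffel symbols with the index lowered -/
lemma low (hx : x ∈ U) (e a b : Fin m) : ∑ d, g x e d * chr g d a b x =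
    (pd a (fun y => g y b e) x + pd b (fun y => g y a e) x - pd e (fun y => g y a b) x) / 2 := by
  unfold chr
  have e1 : ∀ d, g x e d * ((∑ l, up g d l x * (pd a (fun y => g y b l) x +
      pd b (fun y => g y a l) x - pd l (fun y => g y a b) x)) / 2) =
      ∑ l, (g x e d * up g d l x) * ((pd a (fun y => g y b l) x +
      pd b (fun y => g y a l) x - pd l (fun y => g y a b) x) / 2) := by
    intro d
    rw [Finset.sum_div, Finset.mul_sum]
    exact Finset.sum_congr rfl fun l _ => by ring
  simp only [e1]
  rw [Finset.sum_comm]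
  simp only [← Finset.sum_mul, h.g_up hx]
  simp

lemma chr_symm (hx : x ∈ U) (c a b : Fin m) : chr g c a b x = chr g c b a x := by
  unfold chr
  congr 1
  refine Finset.sum_congr rfl fun l _ => ?_
  rw [h.pdg_symm hx l a b]
  ring

/-- the connection is compatible with the metric -/
lemma compat (hx : x ∈ U) (c a b : Fin m) : pd c (fun y => g y a b) x =
    ∑ d, g x b d * chr g d c a x + ∑ d, g x a d * chr g d c b x := by
  rw [h.low hx, h.low hx, h.pdg_symm hx c b a]
  ring

lemma hp_g (hx : x ∈ U) (c a b : Fin m) :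
    HP c (fun y => g y a b) (pd c (fun y => g y a b) x) x :=
  CR.hp ((h.sm a b).le (by norm_num : 0 + 1 ≤ 4)) hx c

lemma hp_up (hx : x ∈ U) (c a b : Fin m) : HP c (up g a b) (pd c (up g a b) x) x :=
  CR.hp ((h.cr_up a b).le (by norm_num : 0 + 1 ≤ 4)) hx c

lemma cr_pdg (c a b : Fin m) : CR 3 U (pd c fun y => g y a b) := CR.pd h.op (h.sm a b) c

lemma cr_chr (c a b : Fin m) : CR 3 U (chr g c a b) := by
  have e1 : chr g c a b = fun x => (∑ l, up g c l x * (pd a (fun y => g y b l) x +
      pd b (fun y => g y a l) x - pd l (fun y => g y a b) x)) * (1 / 2) := by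
    funext x; unfold chr; ring
  rw [e1]
  exact (CR.sum _ fun l => ((h.cr_up c l).le (by norm_num)).mul
    (((h.cr_pdg a b l).add (h.cr_pdg b a l)).sub (h.cr_pdg l a b))).mul (CR.const _)

lemma hp_chr (hx : x ∈ U) (e c a b : Fin m) :
    HP e (chr g c a b) (pd e (chr g c a b) x) x :=
  CR.hp ((h.cr_chr c a b).le (by norm_num : 0 + 1 ≤ 3)) hx e

lemma pd_chr_symm (hx : x ∈ U) (e c a b : Fin m) :
    pd e (chr g c a b) x = pd e (chr g c b a) x :=
  pd_congrU h.op hx (fun _ hy => h.chr_symm hy c a b) e

/-- the derivative of the inverse metric -/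
lemma pd_up (hx : x ∈ U) (c a b : Fin m) : pd c (up g a b) x =
    -(∑ d, chr g a c d x * up g d b x + ∑ d, chr g b c d x * up g a d x) := by
  -- differentiate `g⁻¹ g = 1`
  have h1 : ∀ e, ∑ d, (pd c (up g a d) x * g x d e + up g a d x * pd c (fun y => g y d e) x) =
      0 := by
    intro e
    have h2 : HP c (fun y => ∑ d, up g a d y * g y d e)
        (∑ d, (pd c (up g a d) x * g x d e + up g a d x * pd c (fun y => g y d e) x)) x :=
      HP.sum _ fun d _ => (h.hp_up hx c a d).mul (h.hp_g hx c d e)
    have h3 : (fun y => ∑ d, up g a d y * g y d e) =ᶠ[𝓝 x] fun _ => if a = e then 1 else 0 := by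
      filter_upwards [h.op.mem_nhds hx] with _ hy
      exact h.up_g hy a e
    rw [← h2.pd]
    exact ((HP.const c (if a = e then (1 : ℝ) else 0) x).congr h3).pd
  have h4 : ∑ e, (∑ d, (pd c (up g a d) x * g x d e + up g a d x * pd c (fun y => g y d e) x)) *
      up g e b x = 0 := by
    simp only [h1, zero_mul, Finset.sum_const_zero]
  have e1 : ∀ e, (∑ d, (pd c (up g a d) x * g x d e + up g a d x * pd c (fun y => g y d e) x)) *
      up g e b x = ∑ d, pd c (up g a d) x * (g x d e * up g e b x) +
      (∑ d, ∑ f, (up g a d x * chr g f c d x) * (g x e f * up g e b x) +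
        ∑ d, ∑ f, (chr g f c e x * up g e b x) * (up g a d x * g x d f)) := by
    intro e
    rw [Finset.sum_mul, ← Finset.sum_add_distrib, ← Finset.sum_add_distrib]
    refine Finset.sum_congr rfl fun d _ => ?_
    rw [h.compat hx c d e, ← Finset.sum_add_distrib, ← Finset.sum_add_distrib, add_mul,
      mul_assoc (pd c (up g a d) x)]
    congr 1
    rw [Finset.mul_sum, Finset.sum_mul]
    exact Finset.sum_congr rfl fun f _ => by ring
  rw [Finset.sum_congr rfl fun e _ => e1 e] at h4
  simp only [Finset.sum_add_distrib] at h4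
  have e2 : ∑ e, ∑ d, pd c (up g a d) x * (g x d e * up g e b x) = pd c (up g a b) x := by
    rw [Finset.sum_comm]
    simp only [← Finset.mul_sum, h.g_up hx]
    simp
  have e3 : ∑ e, ∑ d, ∑ f, (up g a d x * chr g f c d x) * (g x e f * up g e b x) =
      ∑ d, chr g b c d x * up g a d x := by
    rw [Finset.sum_comm]
    refine Finset.sum_congr rfl fun d _ => ?_
    rw [Finset.sum_comm]
    have : ∀ f, ∑ e, (up g a d x * chr g f c d x) * (g x e f * up g e b x) =
        (up g a d x * chr g f c d x) * if f = b then 1 else 0 := by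
      intro f
      rw [← Finset.mul_sum, ← h.g_up hx f b]
      congr 1
      exact Finset.sum_congr rfl fun e _ => by rw [h.symm x hx e f]
    simp only [this]
    simp [mul_comm]
  have e4 : ∑ e, ∑ d, ∑ f, (chr g f c e x * up g e b x) * (up g a d x * g x d f) =
      ∑ d, chr g a c d x * up g d b x := by
    refine Finset.sum_congr rfl fun e _ => ?_
    rw [Finset.sum_comm]
    simp only [← Finset.mul_sum, h.up_g hx]
    simp
  rw [e2, e3, e4] at h4
  linarith

/-- The Ricci tensor is the trace of the Riemann tensor. -/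
lemma ric_Rm (hx : x ∈ U) (b d : Fin m) : Kerr.ric g b d x = ∑ a, Rm g a b a d x := by
  unfold Kerr.ric Rm
  refine Finset.sum_congr rfl fun a _ => ?_
  rw [h.pd_chr_symm hx a a b d, h.pd_chr_symm hx d a b a]
  congr 1
  refine Finset.sum_congr rfl fun l _ => ?_
  rw [h.chr_symm hx l b d, h.chr_symm hx l b a]

omit h in
lemma Rm_anti (a b c d : Fin m) : Rm g a b c d x = - Rm g a b d c x := by
  unfold Rm
  rw [← sub_eq_zero]
  have : ∑ e, (chr g a c e x * chr g e d b x - chr g a d e x * chr g e c b x) =
      -∑ e, (chr g a d e x * chr g e c b x - chr g a c e x * chr g e d b x) := by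
    rw [← Finset.sum_neg_distrib]
    exact Finset.sum_congr rfl fun e _ => by ring
  rw [this]
  ring

omit h in
lemma RL_anti2 (a b c d : Fin m) : RL g a b c d x = - RL g a b d c x := by
  unfold RL
  rw [← Finset.sum_neg_distrib]
  exact Finset.sum_congr rfl fun e _ => by rw [Rm_anti]; ring

/-- The Riemann tensor is antisymmetric in the first pair. -/
lemma RL_anti (hx : x ∈ U) (a b c d : Fin m) : RL g a b c d x = - RL g b a c d x := by
  -- lowered Christoffel symbols
  set L : Fin m → Fin m → Fin m → E m → ℝ := fun e a b y => ∑ d, g y e d * chr g d a b y with hL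
  have hpL : ∀ c e a b, HP c (L e a b) (∑ d, (pd c (fun y => g y e d) x * chr g d a b x +
      g x e d * pd c (chr g d a b) x)) x := fun c e a b =>
    HP.sum _ fun d _ => (h.hp_g hx c e d).mul (h.hp_chr hx c d a b)
  have hc : ∀ c a b, ∀ y ∈ U, pd c (fun y => g y a b) y = L b c a y + L a c b y := by
    intro c a b _ hy
    exact h.compat hy c a b
  have h2 : ∀ d c a b, pd d (pd c fun y => g y a b) x = pd d (L b c a) x + pd d (L a c b) x := by
    intro d c a b
    rw [pd_congrU h.op hx (hc c a b) d]
    exact ((hpL d b c a).add (hpL d a c b)).pd.trans (by rw [(hpL d b c a).pd, (hpL d a c b).pd])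
  have h3 : pd d (pd c fun y => g y a b) x = pd c (pd d fun y => g y a b) x :=
    pd_comm h.op ((h.sm a b).le (by norm_num)) hx d c
  rw [h2, h2] at h3
  -- `g_{ae} ∂_c Γ^e_{db}`
  have h4 : ∀ c a d b, ∑ e, g x a e * pd c (chr g e d b) x =
      pd c (L a d b) x - ∑ e, (L e c a x + L a c e x) * chr g e d b x := by
    intro c a d b
    rw [(hpL c a d b).pd, ← Finset.sum_sub_distrib]
    refine Finset.sum_congr rfl fun e _ => ?_
    rw [hc c a e x hx]
    ring
  have h5 : ∀ a b c d, RL g a b c d x = pd c (L a d b) x - pd d (L a c b) x -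
      ∑ e, L e c a x * chr g e d b x + ∑ e, L e d a x * chr g e c b x := by
    intro a b c d
    have e1 : RL g a b c d x = ∑ e, g x a e * pd c (chr g e d b) x -
        ∑ e, g x a e * pd d (chr g e c b) x +
        (∑ e, ∑ f, g x a e * (chr g e c f x * chr g f d b x) -
          ∑ e, ∑ f, g x a e * (chr g e d f x * chr g f c b x)) := by
      unfold RL Rm
      rw [← Finset.sum_sub_distrib, ← Finset.sum_sub_distrib, ← Finset.sum_add_distrib]
      refine Finset.sum_congr rfl fun e _ => ?_
      rw [← Finset.sum_sub_distrib, mul_add, Finset.mul_sum]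
      congr 1
      · ring
      · exact Finset.sum_congr rfl fun f _ => by ring
    have e2 : ∀ c d, ∑ e, ∑ f, g x a e * (chr g e c f x * chr g f d b x) =
        ∑ e, L a c e x * chr g e d b x := by
      intro c d
      rw [Finset.sum_comm]
      refine Finset.sum_congr rfl fun f _ => ?_
      simp only [hL]
      rw [Finset.sum_mul]
      exact Finset.sum_congr rfl fun e _ => by ring
    rw [e1, e2, e2, h4, h4]
    simp only [add_mul, Finset.sum_add_distrib]
    ring
  have h6 : ∀ c a d b, ∑ e, L e c a x * chr g e d b x = ∑ e, L e d b x * chr g e c a x := by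
    intro c a d b
    simp only [hL, Finset.sum_mul]
    rw [Finset.sum_comm]
    refine Finset.sum_congr rfl fun e _ => Finset.sum_congr rfl fun f _ => ?_
    rw [h.symm x hx f e]
    ring
  rw [h5, h5, h6 c a d b, h6 d a c b]
  linarith

end Met

end Vale.Agent.P366.GC
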