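import Vale.Agent.P366.H896.D.Defs
import Vale.Agent.P366.H896.W.Gr
import Vale.Agent.P366.H208.N.ToDat

/-! The hypersurface `t = f(y)`: the normal and the formulas of Gauss and Weingarten. -/

open MeasureTheory Metric Filter Topology Set
open scoped ContDiff

noncomputable section
namespace Vale.Agent.P366.GC
open Vale.Agent.P366.Stmt Vale.Agent.P366.T2
open Vale.Agent.P366.H896 (CR CU pd_comm pd_congrU)
open Vale.Agent.P366.Kerr (pt tng con indG indK lapse ein ric)

variable {n : ℕ} {G : Stmt.Field (n + 1)} {f : E n → ℝ} {U : Set (E (n + 1))} {W : Set (E n)}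
  {X Y : Fin (n + 1) → E n → ℝ} {y : E n}

lemma Tv_zero (f : E n → ℝ) (j : Fin n) (y : E n) : Tv f j 0 y = Stmt.pd j f y := rfl

lemma Tv_succ (f : E n → ℝ) (j i : Fin n) (y : E n) :
    Tv f j i.succ y = if i = j then 1 else 0 := by
  unfold Tv tng
  rw [Fin.cons_succ, Pi.single_apply]

lemma con_zero (f : E n → ℝ) (y : E n) : con f y 0 = 1 := rfl

lemma con_succ (f : E n → ℝ) (i : Fin n) (y : E n) : con f y i.succ = - Stmt.pd i f y := rfl

lemma con_T (f : E n → ℝ) (j : Fin n) (y : E n) : ∑ a, con f y a * Tv f j a y = 0 := by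
  rw [Fin.sum_univ_succ]
  simp only [con_zero, con_succ, Tv_zero, Tv_succ]
  simp

section
variable (hS : Sl G f U W)
include hS

lemma cd_gr {r : ℕ} (hr : r ≤ 6) (hy : y ∈ W) :
    ContDiffAt ℝ (r : WithTop ℕ∞) (fun z => pt (f z) z) y := by
  have h3 : (fun z => pt (f z) z) = fun z => pt 0 z + f z •
      (EuclideanSpace.single (0 : Fin (n + 1)) (1 : ℝ) : E (n + 1)) := by
    funext z; exact KSN.Gr.pt_lin (f z) z
  rw [h3]
  exact (KSN.X5.pt_contDiff 0).contDiffAt.add ((hS.sf.le hr y hy).smul contDiffAt_const)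

theorem cr_comp {r : ℕ} (hr : r ≤ 4) {F : E (n + 1) → ℝ} (hF : CR r U F) :
    CR r W fun y => F (pt (f y) y) := fun y hy =>
  ContDiffAt.comp (g := F) (f := fun y => pt (f y) y) y (hF _ (hS.map y hy))
    (cd_gr hS (hr.trans (by norm_num)) hy)

/-- chain rule -/
theorem hp_comp (hy : y ∈ W) {F : E (n + 1) → ℝ} (hF : CR 1 U F) (i : Fin n) :
    HP i (fun y => F (pt (f y) y)) (∑ a, Tv f i a y * Stmt.pd a F (pt (f y) y)) y := by
  have hFd : DifferentiableAt ℝ F (pt (f y) y) :=
    CR.diff (hF.le (by norm_num : 0 + 1 ≤ 1)) (hS.map y hy)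
  have hfd : DifferentiableAt ℝ f y := CR.diff (hS.sf.le (by norm_num : 0 + 1 ≤ 6)) hy
  have h1 := KSN.Gr.dp_gr hFd hfd i
  have h2 := HP.of_diff (k := i) h1.1
  rw [KSN.stmt_pd h1.1, h1.2, ← KSN.stmt_pd hFd, ← KSN.stmt_pd hFd, ← KSN.stmt_pd hfd] at h2
  have e : ∑ a, Tv f i a y * Stmt.pd a F (pt (f y) y) =
      Stmt.pd i.succ F (pt (f y) y) + Stmt.pd i f y * Stmt.pd 0 F (pt (f y) y) := by
    rw [Fin.sum_univ_succ]
    simp only [Tv_zero, Tv_succ]
    simp
    ring
  rw [e]
  exact h2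

theorem cr_T (j : Fin n) (a : Fin (n + 1)) : CR 4 W (Tv f j a) := by
  refine Fin.cases ?_ (fun i => ?_) a
  · have e : Tv f j 0 = Stmt.pd j f := rfl
    rw [e]
    exact (CR.pd hS.opW hS.sf j).le (by norm_num)
  · have e : Tv f j i.succ = fun _ => if i = j then 1 else 0 := funext fun y => Tv_succ f j i y
    rw [e]
    exact CR.const _

/-- `∂_i T_j = ∂_j T_i` -/
theorem pdT_symm (hy : y ∈ W) (i j : Fin n) (a : Fin (n + 1)) :
    Stmt.pd i (Tv f j a) y = Stmt.pd j (Tv f i a) y := by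
  refine Fin.cases ?_ (fun k => ?_) a
  · exact pd_comm hS.opW (hS.sf.le (by norm_num)) hy i j
  · have e : ∀ j : Fin n, Tv f j k.succ = fun _ => if k = j then 1 else 0 :=
      fun j => funext fun y => Tv_succ f j k y
    rw [e, e, (HP.const i _ y).pd, (HP.const j _ y).pd]

lemma cr_con (a : Fin (n + 1)) : CR 4 W fun y => con f y a := by
  refine Fin.cases ?_ (fun i => ?_) a
  · exact CR.const _
  · have e : (fun y => con f y i.succ) = fun y => (-1 : ℝ) * Stmt.pd i f y := by
      funext y; rw [con_succ]; ring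
    rw [e]
    exact (CR.const _).mul ((CR.pd hS.opW hS.sf i).le (by norm_num))

lemma cr_up' (a b : Fin (n + 1)) : CR 4 W fun y => up G a b (pt (f y) y) :=
  cr_comp hS le_rfl (hS.met.cr_up a b)

lemma cr_lapse : CR 4 W (lapse G f) := by
  have h1 : CR 4 W fun y => ∑ a, ∑ b, up G a b (pt (f y) y) * con f y a * con f y b :=
    CR.sum _ fun a => CR.sum _ fun b => ((cr_up' hS a b).mul (cr_con hS a)).mul (cr_con hS b)
  intro y hy
  have h2 := (h1 y hy).neg
  have h3 : -∑ a, ∑ b, up G a b (pt (f y) y) * con f y a * con f y b ≠ 0 := by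
    have := hS.neg y hy
    linarith
  have h4 : √(-∑ a, ∑ b, up G a b (pt (f y) y) * con f y a * con f y b) ≠ 0 := by
    have := hS.neg y hy
    exact (Real.sqrt_pos.2 (by linarith)).ne'
  exact contDiffAt_const.div (h2.sqrt h3) h4

theorem cr_N (a : Fin (n + 1)) : CR 4 W (Nv G f a) := by
  have e : Nv G f a = fun y => (-1 : ℝ) * (lapse G f y *
      ∑ b, up G a b (pt (f y) y) * con f y b) := by
    funext y; unfold Nv; ring
  rw [e]
  exact (CR.const _).mul ((cr_lapse hS).mul
    (CR.sum _ fun b => (cr_up' hS a b).mul (cr_con hS b)))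

/-- the normal covector -/
lemma low_N (hy : y ∈ W) (a : Fin (n + 1)) :
    ∑ b, G (pt (f y) y) a b * Nv G f b y = -(lapse G f y * con f y a) := by
  unfold Nv
  have e1 : ∀ b, G (pt (f y) y) a b * -(lapse G f y * ∑ c, up G b c (pt (f y) y) * con f y c) =
      ∑ c, -(lapse G f y) * con f y c * (G (pt (f y) y) a b * up G b c (pt (f y) y)) := by
    intro b
    rw [Finset.mul_sum, ← Finset.sum_neg_distrib, Finset.mul_sum]
    exact Finset.sum_congr rfl fun c _ => by ring
  simp only [e1]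
  rw [Finset.sum_comm]
  simp only [← Finset.mul_sum, hS.met.g_up (hS.map y hy)]
  simp

lemma ip_N (hy : y ∈ W) (X : Fin (n + 1) → E n → ℝ) :
    ip G f (Nv G f) X y = -(lapse G f y * ∑ a, con f y a * X a y) := by
  unfold ip
  rw [Finset.sum_comm, Finset.mul_sum, ← Finset.sum_neg_distrib]
  refine Finset.sum_congr rfl fun a _ => ?_
  have h1 := low_N hS hy a
  have e1 : ∀ b, G (pt (f y) y) b a * Nv G f b y * X a y =
      (G (pt (f y) y) a b * Nv G f b y) * X a y := fun b => by
    rw [hS.met.symm _ (hS.map y hy) b a]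
  simp only [e1]
  rw [← Finset.sum_mul, h1]
  ring

lemma ip_symm (hy : y ∈ W) (X Y : Fin (n + 1) → E n → ℝ) : ip G f X Y y = ip G f Y X y := by
  unfold ip
  rw [Finset.sum_comm]
  exact Finset.sum_congr rfl fun a _ => Finset.sum_congr rfl fun b _ => by
    rw [hS.met.symm _ (hS.map y hy) b a]; ring

theorem ip_N_T (hy : y ∈ W) (j : Fin n) : ip G f (Nv G f) (Tv f j) y = 0 := by
  rw [ip_N hS hy, con_T]
  ring

lemma lapse_sq (hy : y ∈ W) : lapse G f y ^ 2 *
    ∑ a, ∑ b, up G a b (pt (f y) y) * con f y a * con f y b = -1 := by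
  have h1 := hS.neg y hy
  unfold lapse
  set s := ∑ a, ∑ b, up G a b (pt (f y) y) * con f y a * con f y b
  rw [div_pow, one_pow, Real.sq_sqrt (by linarith)]
  have : s ≠ 0 := h1.ne
  field_simp

lemma con_N : ∑ a, con f y a * Nv G f a y =
    -(lapse G f y * ∑ a, ∑ b, up G a b (pt (f y) y) * con f y a * con f y b) := by
  unfold Nv
  rw [Finset.mul_sum, ← Finset.sum_neg_distrib]
  refine Finset.sum_congr rfl fun a _ => ?_
  rw [mul_neg, Finset.mul_sum, Finset.mul_sum, Finset.mul_sum]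
  congr 1
  exact Finset.sum_congr rfl fun b _ => by ring

lemma lapse_pos (hy : y ∈ W) : 0 < lapse G f y := by
  unfold lapse
  have := hS.neg y hy
  exact div_pos one_pos (Real.sqrt_pos.2 (by linarith))

theorem ip_N_N (hy : y ∈ W) : ip G f (Nv G f) (Nv G f) y = -1 := by
  rw [ip_N hS hy, con_N hS, ← lapse_sq hS hy]
  ring

lemma h_eq (k l : Fin n) : indG G f y k l = ip G f (Tv f k) (Tv f l) y := rfl

/-- every vector is a combination of the normal and the coordinate vectors -/
lemma span (hy : y ∈ W) (Z : Fin (n + 1) → ℝ) : ∃ (α : ℝ) (β : Fin n → ℝ), ∀ a,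
    Z a = α * Nv G f a y + ∑ j, β j * Tv f j a y := by
  have h1 : ∑ a, con f y a * Nv G f a y ≠ 0 := by
    rw [con_N hS]
    have := mul_neg_of_pos_of_neg (lapse_pos hS hy) (hS.neg y hy)
    linarith
  set α := (∑ a, con f y a * Z a) / ∑ a, con f y a * Nv G f a y with hα
  have h2 : ∑ a, con f y a * (Z a - α * Nv G f a y) = 0 := by
    have e1 : ∀ a, con f y a * (Z a - α * Nv G f a y) =
        con f y a * Z a - α * (con f y a * Nv G f a y) := fun a => by ring
    simp only [e1, Finset.sum_sub_distrib, ← Finset.mul_sum]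
    rw [hα]
    field_simp
    ring
  refine ⟨α, fun j => Z j.succ - α * Nv G f j.succ y, fun a => ?_⟩
  refine Fin.cases ?_ (fun i => ?_) a
  · rw [Fin.sum_univ_succ] at h2
    simp only [con_zero, con_succ, one_mul, neg_mul, Finset.sum_neg_distrib] at h2
    simp only [Tv_zero]
    have e2 : ∑ j : Fin n, (Z j.succ - α * Nv G f j.succ y) * Stmt.pd j f y =
        ∑ j : Fin n, Stmt.pd j f y * (Z j.succ - α * Nv G f j.succ y) :=
      Finset.sum_congr rfl fun j _ => mul_comm _ _
    rw [e2]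
    linarith
  · simp only [Tv_succ]
    simp

end

end Vale.Agent.P366.GC
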