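import Vale.Agent.P366.H896.D.G
import Vale.Agent.P366.H896.N.X1

/-! Hypersurfaces `t = f(y)`: local form; the energy and momentum density depend on the germ of the
data only. -/

open MeasureTheory Metric Filter Topology Set
open scoped ContDiff

noncomputable section
namespace Vale.Agent.P366.GC
open Vale.Agent.P366.Stmt Vale.Agent.P366.T2
open Vale.Agent.P366.H896 (CR CU pd_comm pd_congrU)
open Vale.Agent.P366.Kerr (pt tng con indG indK lapse ein ric)

variable {n : ℕ} {G : Stmt.Field (n + 1)} {f : E n → ℝ} {y : E n}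

/-! ### germs -/

section germ
variable {m : ℕ} {g g' K K' : Stmt.Field m} {x : E m}

/-- the two tensor fields agree near `x` -/
def Ge (g g' : Stmt.Field m) (x : E m) : Prop := ∀ᶠ z in 𝓝 x, ∀ i j, g z i j = g' z i j

lemma Ge.at (h : Ge g g' x) : ∀ᶠ z in 𝓝 x, Ge g g' z := h.eventually_nhds

lemma Ge.eq (h : Ge g g' x) : g x = g' x := by
  funext i j
  exact h.self_of_nhds i j

lemma Ge.up (h : Ge g g' x) (i j : Fin m) : Stmt.up g i j x = Stmt.up g' i j x := by
  unfold Stmt.up Stmt.mat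
  rw [h.eq]

lemma Ge.pd (h : Ge g g' x) (k i j : Fin m) :
    Stmt.pd k (fun z => g z i j) x = Stmt.pd k (fun z => g' z i j) x :=
  Filter.EventuallyEq.lineDeriv_eq (h.mono fun _ hz => hz i j)

lemma Ge.chr (h : Ge g g' x) (k i j : Fin m) : Stmt.chr g k i j x = Stmt.chr g' k i j x := by
  unfold Stmt.chr
  simp only [h.up, h.pd]

lemma Ge.pdchr (h : Ge g g' x) (l k i j : Fin m) :
    Stmt.pd l (Stmt.chr g k i j) x = Stmt.pd l (Stmt.chr g' k i j) x :=
  Filter.EventuallyEq.lineDeriv_eq (h.at.mono fun _ hz => hz.chr k i j)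

lemma Ge.scal (h : Ge g g' x) : Stmt.scal g x = Stmt.scal g' x := by
  unfold Stmt.scal
  simp only [h.up, h.chr, h.pdchr]

lemma Ge.tr (h : Ge g g' x) (hK : Ge K K' x) : Stmt.tr g K x = Stmt.tr g' K' x := by
  unfold Stmt.tr
  simp only [h.up, hK.eq]

lemma Ge.momT (h : Ge g g' x) (hK : Ge K K' x) : Ge (Stmt.momT g K) (Stmt.momT g' K') x := by
  filter_upwards [h.at, hK.at] with z hz hKz i j
  unfold Stmt.momT
  rw [hz.tr hKz, hz.eq, hKz.eq]

lemma Ge.mom (h : Ge g g' x) (hK : Ge K K' x) (j : Fin m) :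
    Stmt.mom g K j x = Stmt.mom g' K' j x := by
  unfold Stmt.mom
  simp only [h.up, h.chr, (h.momT hK).pd, (h.momT hK).eq]

lemma Ge.mu (h : Ge g g' x) (hK : Ge K K' x) : Stmt.mu g K x = Stmt.mu g' K' x := by
  unfold Stmt.mu Stmt.normSq
  simp only [h.up, h.scal, h.tr hK, hK.eq]

lemma Ge.covNorm (h : Ge g g' x) (hK : Ge K K' x) :
    Stmt.covNorm g (Stmt.mom g K) x = Stmt.covNorm g' (Stmt.mom g' K') x := by
  unfold Stmt.covNorm
  simp only [h.up, h.mom hK]

end germ

/-! ### the local form -/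

lemma det_cont {m k : ℕ} {A : E m → Matrix (Fin k) (Fin k) ℝ} {x : E m}
    (hA : ∀ i j, ContinuousAt (fun z => A z i j) x) : ContinuousAt (fun z => (A z).det) x := by
  have h1 : ContinuousAt A x := continuousAt_pi.2 fun i => continuousAt_pi.2 fun j => hA i j
  exact (Continuous.matrix_det continuous_id).continuousAt.comp h1

theorem sl_of (hG : ∀ a b, ContDiffAt ℝ ∞ (fun q => G q a b) (pt (f y) y))
    (hs : ∀ᶠ q in 𝓝 (pt (f y) y), ∀ a b, G q a b = G q b a)
    (hd : (mat G (pt (f y) y)).det ≠ 0) (hf : ContDiffAt ℝ ∞ f y)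
    (hn : ∑ a, ∑ b, Stmt.up G a b (pt (f y) y) * con f y a * con f y b < 0)
    (hh : (mat (indG G f) y).det ≠ 0) :
    ∃ (U : Set (E (n + 1))) (W : Set (E n)), y ∈ W ∧ Sl G f U W := by
  have le4 : ((4 : ℕ) : WithTop ℕ∞) ≤ ∞ := KSN.X1.nat_le_smooth 4
  have le6 : ((6 : ℕ) : WithTop ℕ∞) ≤ ∞ := KSN.X1.nat_le_smooth 6
  have h1 : ∀ᶠ q in 𝓝 (pt (f y) y), ∀ a b,
      ContDiffAt ℝ ((4 : ℕ) : WithTop ℕ∞) (fun q => G q a b) q :=
    Filter.eventually_all.2 fun a => Filter.eventually_all.2 fun b =>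
      ((hG a b).of_le le4).eventually (by simp)
  have h2 : ∀ᶠ q in 𝓝 (pt (f y) y), (mat G q).det ≠ 0 :=
    (det_cont fun i j => (hG i j).continuousAt).eventually_ne hd
  obtain ⟨U, hU, hUo, hpU⟩ := _root_.eventually_nhds_iff.1 ((h1.and hs).and h2)
  have hM : Met G U := ⟨hUo, fun a b q hq => (hU q hq).1.1 a b, fun q hq a b => (hU q hq).1.2 a b,
    fun q hq => (hU q hq).2⟩
  -- the hypersurface
  have h3 : ∀ᶠ z in 𝓝 y, ContDiffAt ℝ ((6 : ℕ) : WithTop ℕ∞) f z :=
    (hf.of_le le6).eventually (by simp)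
  have hgr : ContinuousAt (fun z => pt (f z) z) y := by
    have h4 : (fun z => pt (f z) z) = fun z => pt 0 z + f z •
        (EuclideanSpace.single (0 : Fin (n + 1)) (1 : ℝ) : E (n + 1)) := by
      funext z; exact KSN.Gr.pt_lin (f z) z
    rw [h4]
    exact (KSN.X5.pt_contDiff (r := 0) 0).continuous.continuousAt.add
      (hf.continuousAt.smul continuousAt_const)
  have h5 : ∀ᶠ z in 𝓝 y, pt (f z) z ∈ U := hgr.eventually (hUo.mem_nhds hpU)
  obtain ⟨W0, hW0, hW0o, hyW0⟩ := _root_.eventually_nhds_iff.1 (h3.and h5)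
  have hsf : CR 6 W0 f := fun z hz => (hW0 z hz).1
  have hpc : ∀ i, ContinuousAt (Stmt.pd i f) y := fun i =>
    (CR.pd hW0o hsf i y hyW0).continuousAt
  have hconc : ∀ a, ContinuousAt (fun z => con f z a) y := by
    intro a
    refine Fin.cases ?_ (fun i => ?_) a
    · exact continuousAt_const
    · exact (hpc i).neg
  have htc : ∀ i a, ContinuousAt (fun z => tng f i z a) y := by
    intro i a
    refine Fin.cases ?_ (fun j => ?_) a
    · exact hpc i
    · have e : (fun z => tng f i z j.succ) = fun _ => if j = i then 1 else 0 :=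
        funext fun z => Tv_succ f i j z
      rw [e]
      exact continuousAt_const
  have hupc : ∀ a b, ContinuousAt (fun z => Stmt.up G a b (pt (f z) z)) y := fun a b =>
    ContinuousAt.comp (g := Stmt.up G a b) (f := fun z => pt (f z) z)
      (hM.cr_up a b _ hpU).continuousAt hgr
  have hGc : ∀ a b, ContinuousAt (fun z => G (pt (f z) z) a b) y := fun a b =>
    ContinuousAt.comp (g := fun q => G q a b) (f := fun z => pt (f z) z)
      (hG a b).continuousAt hgr
  have h6 : ContinuousAt (fun z => ∑ a, ∑ b, Stmt.up G a b (pt (f z) z) * con f z a *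
      con f z b) y :=
    tendsto_finsetSum _ fun a _ => tendsto_finsetSum _ fun b _ =>
      ((hupc a b).mul (hconc a)).mul (hconc b)
  have h7 : ContinuousAt (fun z => (mat (indG G f) z).det) y := det_cont fun i j => by
    have h8 : ContinuousAt (fun z => ∑ a, ∑ b, G (pt (f z) z) a b * tng f i z a *
        tng f j z b) y :=
      tendsto_finsetSum _ fun a _ => tendsto_finsetSum _ fun b _ =>
        ((hGc a b).mul (htc i a)).mul (htc j b)
    exact h8
  have h9 : ∀ᶠ z in 𝓝 y, z ∈ W0 := hW0o.mem_nhds hyW0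
  obtain ⟨W, hW, hWo, hyW⟩ := _root_.eventually_nhds_iff.1
    ((h9.and (h6.eventually (gt_mem_nhds hn))).and (h7.eventually_ne hh))
  exact ⟨U, W, hyW, ⟨hM, hWo, fun z hz => hsf z (hW z hz).1.1,
    fun z hz => (hW0 z (hW z hz).1.1).2, fun z hz => (hW z hz).1.2, fun z hz => (hW z hz).2⟩⟩

end Vale.Agent.P366.GC
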