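import Vale.Agent.P366.H896.D.Cg
import Vale.Agent.P366.H474.D.Mu
import Vale.Agent.P366.H353.D.L10

/-! The dominant energy condition of the data of a hypersurface `t = f(y)`. -/

open MeasureTheory Metric Filter Topology Set
open scoped ContDiff

noncomputable section
namespace Vale.Agent.P366.GC
open Vale.Agent.P366.Stmt Vale.Agent.P366.T2
open Vale.Agent.P366.H896 (CR CU pd_comm pd_congrU)
open Vale.Agent.P366.Kerr (pt tng con indG indK lapse ein ric)

variable {n : ℕ} {G : Stmt.Field (n + 1)} {f : E n → ℝ} {U : Set (E (n + 1))} {W : Set (E n)}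
  {y : E n}

/-- The covector `G(N~, ·)` of the normal `N~ = - G⁻¹(dt - df)`. -/
def Gn (G : Stmt.Field (n + 1)) (f : E n → ℝ) (y : E n) (b : Fin (n + 1)) : ℝ :=
  ∑ d, ein G d b (pt (f y) y) * (-∑ c, Stmt.up G c d (pt (f y) y) * con f y c)

section
variable (hS : Sl G f U W)
include hS

lemma Nv_eq (hy : y ∈ W) (d : Fin (n + 1)) : Nv G f d y = lapse G f y *
    (-∑ c, Stmt.up G c d (pt (f y) y) * con f y c) := by
  unfold Nv
  rw [mul_neg]
  congr 2
  exact Finset.sum_congr rfl fun c _ => by rw [hS.met.up_symm (hS.map y hy) d c]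

lemma GN_sum (hy : y ∈ W) (Z : Fin (n + 1) → ℝ) :
    ∑ a, ∑ b, ein G a b (pt (f y) y) * Nv G f a y * Z b =
      lapse G f y * ∑ b, Gn G f y b * Z b := by
  unfold Gn
  rw [Finset.sum_comm, Finset.mul_sum]
  refine Finset.sum_congr rfl fun b _ => ?_
  rw [Finset.sum_mul, Finset.mul_sum]
  exact Finset.sum_congr rfl fun d _ => by rw [Nv_eq hS hy]; ring

lemma future (hy : y ∈ W) {Z : Fin (n + 1) → ℝ} (hf : 0 ≤ ∑ a, con f y a * Z a) :
    ∑ a, ∑ b, G (pt (f y) y) a b * Nv G f a y * Z b ≤ 0 := by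
  have h2 := ip_N hS hy fun b _ => Z b
  unfold ip at h2
  rw [h2]
  have := mul_nonneg (lapse_pos hS hy).le hf
  linarith

/-- The dominant energy condition `μ ≥ |J|` of the data near `y`: the Einstein tensor is
nonnegative on the pairs of the future normal and a future causal vector. -/
theorem data_dec_pos (hy : y ∈ W) {g K : Stmt.Field n}
    (hg : Ge g (indG G f) y) (hK : Ge K (indK G f) y) (hpd : (mat g y).PosDef)
    (hdec : Stmt.covNorm g (Stmt.mom g K) y ≤ Stmt.mu g K y) {Z : Fin (n + 1) → ℝ}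
    (hZ : ∑ a, ∑ b, G (pt (f y) y) a b * Z a * Z b ≤ 0) (hf : 0 ≤ ∑ a, con f y a * Z a) :
    0 ≤ ∑ b, Gn G f y b * Z b := by
  rw [hg.covNorm hK, hg.mu hK] at hdec
  have e0 : mat g y = mat (indG G f) y := hg.eq
  rw [e0] at hpd
  have h3 := dec_pos hS hy hpd hdec hZ (future hS hy hf)
  rw [GN_sum hS hy] at h3
  exact nonneg_of_mul_nonneg_right h3 (lapse_pos hS hy)

/-- If moreover the Einstein tensor vanishes for the normal and one future timelike vector, then
it vanishes for the normal and every vector. -/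
theorem data_dec_zero (hy : y ∈ W) {g K : Stmt.Field n}
    (hg : Ge g (indG G f) y) (hK : Ge K (indK G f) y) (hpd : (mat g y).PosDef)
    (hdec : Stmt.covNorm g (Stmt.mom g K) y ≤ Stmt.mu g K y) {Z : Fin (n + 1) → ℝ}
    (hZ : ∑ a, ∑ b, G (pt (f y) y) a b * Z a * Z b < 0) (hf : 0 ≤ ∑ a, con f y a * Z a)
    (h0 : ∑ b, Gn G f y b * Z b = 0) (b : Fin (n + 1)) : Gn G f y b = 0 := by
  rw [hg.covNorm hK, hg.mu hK] at hdec
  have e0 : mat g y = mat (indG G f) y := hg.eq
  rw [e0] at hpd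
  have h1 : ∑ a, ∑ b, ein G a b (pt (f y) y) * Nv G f a y * Z b = 0 := by
    rw [GN_sum hS hy, h0, mul_zero]
  have h3 := dec_zero hS hy hpd hdec hZ (future hS hy hf) h1 b
  have h4 : ∑ a, ein G a b (pt (f y) y) * Nv G f a y = lapse G f y * Gn G f y b := by
    unfold Gn
    rw [Finset.mul_sum]
    exact Finset.sum_congr rfl fun d _ => by rw [Nv_eq hS hy]; ring
  rw [h4] at h3
  exact (mul_eq_zero.1 h3).resolve_left (lapse_pos hS hy).ne'

end

end Vale.Agent.P366.GC
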