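import Vale.Agent.P366.H896.D.Defs

/-! The momentum density `J_j = ∇^i K_ij - ∂_j tr K`. -/

open MeasureTheory Metric Filter Topology Set
open scoped ContDiff

noncomputable section
namespace Vale.Agent.P366.GC
open Vale.Agent.P366.Stmt Vale.Agent.P366.T2
open Vale.Agent.P366.H896 (CR)

variable {n : ℕ} {W : Set (E n)} {y : E n}

/-- `∇ h = 0` -/
lemma cdK_self {h : Stmt.Field n} (hM : Met h W) (hy : y ∈ W) (k i j : Fin n) :
    cdK h h k i j y = 0 := by
  unfold cdK
  rw [hM.compat hy k i j, Finset.sum_add_distrib]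
  have e1 : ∑ d, h y j d * Stmt.chr h d k i y = ∑ l, Stmt.chr h l k i y * h y l j :=
    Finset.sum_congr rfl fun d _ => by rw [hM.symm y hy j d]; ring
  have e2 : ∑ d, h y i d * Stmt.chr h d k j y = ∑ l, Stmt.chr h l k j y * h y i l :=
    Finset.sum_congr rfl fun d _ => by ring
  rw [e1, e2]
  ring

section
variable {h K : Stmt.Field n} (hM : Met h W) (hK : ∀ i j, CR 1 W fun y => K y i j)
include hM hK

omit hM in
lemma hp_K (hy : y ∈ W) (c i j : Fin n) :
    HP c (fun y => K y i j) (Stmt.pd c (fun y => K y i j) y) y :=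
  CR.hp (hK i j) hy c

lemma hp_tr (hy : y ∈ W) (j : Fin n) :
    HP j (tr h K) (∑ i, ∑ k, Stmt.up h i k y * cdK h K j i k y) y := by
  have h1 : HP j (tr h K) (∑ i, ∑ k, (Stmt.pd j (Stmt.up h i k) y * K y i k +
      Stmt.up h i k y * Stmt.pd j (fun y => K y i k) y)) y :=
    HP.sum _ fun i _ => HP.sum _ fun k _ => (hM.hp_up hy j i k).mul (hp_K hK hy j i k)
  convert h1 using 1
  have e1 : ∀ i k, Stmt.up h i k y * cdK h K j i k y =
      Stmt.up h i k y * Stmt.pd j (fun y => K y i k) y -
      (∑ l, Stmt.chr h l j i y * Stmt.up h i k y * K y l k +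
        ∑ l, Stmt.chr h l j k y * Stmt.up h i k y * K y i l) := by
    intro i k
    unfold cdK
    rw [mul_sub, Finset.mul_sum, ← Finset.sum_add_distrib]
    congr 1
    exact Finset.sum_congr rfl fun l _ => by ring
  have e2 : ∀ i k, Stmt.pd j (Stmt.up h i k) y * K y i k +
      Stmt.up h i k y * Stmt.pd j (fun y => K y i k) y =
      Stmt.up h i k y * Stmt.pd j (fun y => K y i k) y -
      (∑ d, Stmt.chr h i j d y * Stmt.up h d k y * K y i k +
        ∑ d, Stmt.chr h k j d y * Stmt.up h i d y * K y i k) := by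
    intro i k
    rw [hM.pd_up hy, ← Finset.sum_mul, ← Finset.sum_mul]
    ring
  simp only [e1, e2, Finset.sum_sub_distrib, Finset.sum_add_distrib]
  have e3 : ∑ i, ∑ k, ∑ l, Stmt.chr h l j i y * Stmt.up h i k y * K y l k =
      ∑ i, ∑ k, ∑ d, Stmt.chr h i j d y * Stmt.up h d k y * K y i k := by
    calc _ = ∑ i, ∑ l, ∑ k, Stmt.chr h l j i y * Stmt.up h i k y * K y l k :=
          Finset.sum_congr rfl fun i _ => Finset.sum_comm
      _ = ∑ l, ∑ i, ∑ k, Stmt.chr h l j i y * Stmt.up h i k y * K y l k := Finset.sum_comm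
      _ = _ := Finset.sum_congr rfl fun l _ => Finset.sum_comm
  have e4 : ∑ i, ∑ k, ∑ l, Stmt.chr h l j k y * Stmt.up h i k y * K y i l =
      ∑ i, ∑ k, ∑ d, Stmt.chr h k j d y * Stmt.up h i d y * K y i k :=
    Finset.sum_congr rfl fun i _ => Finset.sum_comm
  rw [e3, e4]

theorem mom_eq (_hKs : ∀ y ∈ W, ∀ i j, K y i j = K y j i) (hy : y ∈ W) (j : Fin n) :
    mom h K j y = ∑ i, ∑ k, Stmt.up h i k y * (cdK h K k i j y - cdK h K j i k y) := by
  have ht := fun k => hp_tr hM hK hy k
  have hpi : ∀ k i, Stmt.pd k (fun y => momT h K y i j) y =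
      Stmt.pd k (fun y => K y i j) y -
        (Stmt.pd k (tr h K) y * h y i j + tr h K y * Stmt.pd k (fun y => h y i j) y) := by
    intro k i
    have h1 := (hp_K hK hy k i j).sub ((ht k).mul (hM.hp_g hy k i j))
    rw [← (ht k).pd] at h1
    exact h1.pd
  unfold mom
  have e1 : ∀ i k, Stmt.up h i k y * (Stmt.pd k (fun y => momT h K y i j) y -
      ∑ l, (Stmt.chr h l k i y * momT h K y l j + Stmt.chr h l k j y * momT h K y i l)) =
      Stmt.up h i k y * cdK h K k i j y - tr h K y * (Stmt.up h i k y * cdK h h k i j y) -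
        Stmt.pd k (tr h K) y * (Stmt.up h i k y * h y i j) := by
    intro i k
    rw [hpi k i]
    have e2 : ∑ l, (Stmt.chr h l k i y * momT h K y l j + Stmt.chr h l k j y * momT h K y i l) =
        ∑ l, (Stmt.chr h l k i y * K y l j + Stmt.chr h l k j y * K y i l) -
        tr h K y * ∑ l, (Stmt.chr h l k i y * h y l j + Stmt.chr h l k j y * h y i l) := by
      rw [Finset.mul_sum, ← Finset.sum_sub_distrib]
      refine Finset.sum_congr rfl fun l _ => ?_
      unfold momT
      ring
    rw [e2]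
    unfold cdK
    ring
  simp only [e1, cdK_self hM hy, mul_zero, sub_zero]
  have e3 : ∑ i, ∑ k, Stmt.pd k (tr h K) y * (Stmt.up h i k y * h y i j) =
      Stmt.pd j (tr h K) y := by
    rw [Finset.sum_comm]
    have : ∀ k, ∑ i, Stmt.pd k (tr h K) y * (Stmt.up h i k y * h y i j) =
        Stmt.pd k (tr h K) y * if k = j then 1 else 0 := by
      intro k
      rw [← Finset.mul_sum, ← hM.up_g hy k j]
      congr 1
      exact Finset.sum_congr rfl fun i _ => by rw [hM.up_symm hy i k]
    simp only [this]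
    simp
  simp only [Finset.sum_sub_distrib]
  rw [e3, (ht j).pd]
  simp only [mul_sub, Finset.sum_sub_distrib]

end

end Vale.Agent.P366.GC
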