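import Vale.Agent.P366.H896.D.C
import Vale.Agent.P366.H896.D.M

/-! The equations of Gauss and Codazzi for the hypersurface `t = f(y)`. -/

open MeasureTheory Metric Filter Topology Set
open scoped ContDiff

noncomputable section
namespace Vale.Agent.P366.GC
open Vale.Agent.P366.Stmt Vale.Agent.P366.T2
open Vale.Agent.P366.H896 (CR CU pd_comm pd_congrU)
open Vale.Agent.P366.Kerr (pt tng con indG indK lapse ein ric)

variable {n : ℕ} {G : Stmt.Field (n + 1)} {f : E n → ℝ} {U : Set (E (n + 1))} {W : Set (E n)}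
  {X Y : Fin (n + 1) → E n → ℝ} {y : E n}

/-- the commutator of the covariant derivatives -/
def Comm (G : Stmt.Field (n + 1)) (f : E n → ℝ) (W : Set (E n)) : Prop :=
  ∀ X : Fin (n + 1) → E n → ℝ, (∀ a, CR 2 W (X a)) → ∀ y ∈ W, ∀ (i j : Fin n)
    (a : Fin (n + 1)), Dv G f i (Dv G f j X) a y - Dv G f j (Dv G f i X) a y =
      ∑ b, ∑ c, ∑ d, Rm G a b c d (pt (f y) y) * X b y * Tv f i c y * Tv f j d y

section
variable (hS : Sl G f U W)
include hS

lemma cr_K (i j : Fin n) : CR 3 W fun y => indK G f y i j := by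
  have h1 : ∀ a b c, CR 3 W fun y => Stmt.chr G a b c (pt (f y) y) := fun a b c =>
    cr_comp hS (by norm_num) (hS.met.cr_chr a b c)
  have hT : ∀ j a, CR 3 W fun y => tng f j y a := fun j a => (cr_T hS j a).le (by norm_num)
  refine ((cr_lapse hS).le (by norm_num)).mul ?_
  exact ((CR.pd hS.opW (CR.pd hS.opW hS.sf j) i).le (by norm_num)).add
    (CR.sum _ fun a => ((cr_con hS a).le (by norm_num)).mul (CR.sum _ fun b =>
      CR.sum _ fun c => ((h1 a b c).mul (hT i b)).mul (hT j c)))

lemma K_symm (hy : y ∈ W) (i j : Fin n) : indK G f y i j = indK G f y j i := by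
  unfold indK
  congr 2
  · exact pd_comm hS.opW (hS.sf.le (by norm_num)) hy i j
  · refine Finset.sum_congr rfl fun a _ => ?_
    congr 1
    rw [Finset.sum_comm]
    exact Finset.sum_congr rfl fun b _ => Finset.sum_congr rfl fun c _ => by
      rw [hS.met.chr_symm (hS.map y hy) a c b]; ring

/-- the second covariant derivative of `T_k` -/
lemma DD (hy : y ∈ W) (i j k : Fin n) (a : Fin (n + 1)) :
    Dv G f i (Dv G f j (Tv f k)) a y =
      (Stmt.pd i (fun y => indK G f y j k) y +
        ∑ p, Stmt.chr (indG G f) p j k y * indK G f y i p) * Nv G f a y +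
      ∑ m, (Stmt.pd i (Stmt.chr (indG G f) m j k) y +
        ∑ p, Stmt.chr (indG G f) m i p y * Stmt.chr (indG G f) p j k y +
        indK G f y j k * ∑ q, Stmt.up (indG G f) q m y * indK G f y i q) * Tv f m a y := by
  have hM := met_h hS
  have h1 : HP i (Dv G f j (Tv f k) a)
      (∑ m, (Stmt.pd i (Stmt.chr (indG G f) m j k) y * Tv f m a y +
        Stmt.chr (indG G f) m j k y * Stmt.pd i (Tv f m a) y) +
        (Stmt.pd i (fun y => indK G f y j k) y * Nv G f a y +
          indK G f y j k * Stmt.pd i (Nv G f a) y)) y := by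
    have h2 : HP i (fun y => ∑ m, Stmt.chr (indG G f) m j k y * Tv f m a y +
        indK G f y j k * Nv G f a y) (∑ m, (Stmt.pd i (Stmt.chr (indG G f) m j k) y * Tv f m a y +
        Stmt.chr (indG G f) m j k y * Stmt.pd i (Tv f m a) y) +
        (Stmt.pd i (fun y => indK G f y j k) y * Nv G f a y +
          indK G f y j k * Stmt.pd i (Nv G f a) y)) y :=
      (HP.sum _ fun m _ => (hM.hp_chr hy i m j k).mul
        (CR.hp ((cr_T hS m a).le (by norm_num : 0 + 1 ≤ 4)) hy i)).add
        ((CR.hp ((cr_K hS j k).le (by norm_num : 0 + 1 ≤ 3)) hy i).mul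
          (CR.hp ((cr_N hS a).le (by norm_num : 0 + 1 ≤ 4)) hy i))
    refine h2.congr ?_
    filter_upwards [hS.opW.mem_nhds hy] with z hz
    exact gauss_formula hS hz j k a
  -- `Dv i (Dv j T_k)` by the product rule
  have h3 : Dv G f i (Dv G f j (Tv f k)) a y =
      ∑ m, (Stmt.pd i (Stmt.chr (indG G f) m j k) y * Tv f m a y +
        Stmt.chr (indG G f) m j k y * Dv G f i (Tv f m) a y) +
      (Stmt.pd i (fun y => indK G f y j k) y * Nv G f a y +
        indK G f y j k * Dv G f i (Nv G f) a y) := by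
    have e0 : Dv G f i (Dv G f j (Tv f k)) a y = Stmt.pd i (Dv G f j (Tv f k) a) y +
      ∑ b, ∑ c, Stmt.chr G a b c (pt (f y) y) * Tv f i b y * Dv G f j (Tv f k) c y := rfl
    rw [e0, h1.pd]
    have e1 : ∀ b c, Stmt.chr G a b c (pt (f y) y) * Tv f i b y * Dv G f j (Tv f k) c y =
        ∑ m, Stmt.chr (indG G f) m j k y *
          (Stmt.chr G a b c (pt (f y) y) * Tv f i b y * Tv f m c y) +
        indK G f y j k * (Stmt.chr G a b c (pt (f y) y) * Tv f i b y * Nv G f c y) := by
      intro b c
      rw [gauss_formula hS hy, mul_add, Finset.mul_sum]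
      congr 1
      · exact Finset.sum_congr rfl fun m _ => by ring
      · ring
    simp only [e1, Finset.sum_add_distrib, ← Finset.mul_sum]
    have e2 : ∑ b, ∑ c, ∑ m, Stmt.chr (indG G f) m j k y *
          (Stmt.chr G a b c (pt (f y) y) * Tv f i b y * Tv f m c y) =
        ∑ m, Stmt.chr (indG G f) m j k y * ∑ b, ∑ c,
          Stmt.chr G a b c (pt (f y) y) * Tv f i b y * Tv f m c y := by
      simp only [Finset.mul_sum]
      calc _ = ∑ b, ∑ m, ∑ c, Stmt.chr (indG G f) m j k y *
            (Stmt.chr G a b c (pt (f y) y) * Tv f i b y * Tv f m c y) :=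
            Finset.sum_congr rfl fun b _ => Finset.sum_comm
        _ = _ := Finset.sum_comm
    rw [e2]
    unfold Dv
    simp only [mul_add, Finset.sum_add_distrib]
    ring
  rw [h3]
  simp only [gauss_formula hS hy, weingarten hS hy]
  have e4 : ∑ m, (Stmt.pd i (Stmt.chr (indG G f) m j k) y * Tv f m a y +
      Stmt.chr (indG G f) m j k y * (∑ l, Stmt.chr (indG G f) l i m y * Tv f l a y +
        indK G f y i m * Nv G f a y)) =
      ∑ m, Stmt.pd i (Stmt.chr (indG G f) m j k) y * Tv f m a y +
      (∑ m, (∑ p, Stmt.chr (indG G f) m i p y * Stmt.chr (indG G f) p j k y) * Tv f m a y +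
        (∑ p, Stmt.chr (indG G f) p j k y * indK G f y i p) * Nv G f a y) := by
    rw [Finset.sum_add_distrib]
    congr 1
    simp only [mul_add, Finset.sum_add_distrib, Finset.mul_sum, Finset.sum_mul]
    congr 1
    · rw [Finset.sum_comm]
      exact Finset.sum_congr rfl fun m _ => Finset.sum_congr rfl fun p _ => by ring
    · exact Finset.sum_congr rfl fun p _ => by ring
  have e5 : indK G f y j k * ∑ q, ∑ l, Stmt.up (indG G f) q l y * indK G f y i q * Tv f l a y =
      ∑ m, (indK G f y j k * ∑ q, Stmt.up (indG G f) q m y * indK G f y i q) * Tv f m a y := by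
    rw [Finset.sum_comm, Finset.mul_sum]
    refine Finset.sum_congr rfl fun l _ => ?_
    rw [Finset.mul_sum, Finset.mul_sum, Finset.sum_mul]
    exact Finset.sum_congr rfl fun q _ => by ring
  rw [e4, e5]
  simp only [add_mul, Finset.sum_add_distrib]
  ring

lemma RT_ip (hC : Comm G f W) (hy : y ∈ W) (i j k : Fin n) (X : Fin (n + 1) → E n → ℝ) :
    ∑ a, ∑ b, ∑ c, ∑ d, RL G a b c d (pt (f y) y) * X a y * Tv f k b y * Tv f i c y *
      Tv f j d y = ip G f X (fun a y => Dv G f i (Dv G f j (Tv f k)) a y -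
        Dv G f j (Dv G f i (Tv f k)) a y) y := by
  unfold ip
  refine Finset.sum_congr rfl fun a _ => ?_
  have h1 : ∀ e, Dv G f i (Dv G f j (Tv f k)) e y - Dv G f j (Dv G f i (Tv f k)) e y =
      ∑ b, ∑ c, ∑ d, Rm G e b c d (pt (f y) y) * Tv f k b y * Tv f i c y * Tv f j d y :=
    fun e => hC _ (fun a => (cr_T hS k a).le (by norm_num)) y hy i j e
  simp only [h1]
  have e1 : ∀ e, G (pt (f y) y) a e * X a y * ∑ b, ∑ c, ∑ d,
      Rm G e b c d (pt (f y) y) * Tv f k b y * Tv f i c y * Tv f j d y =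
      ∑ b, ∑ c, ∑ d, (G (pt (f y) y) a e * Rm G e b c d (pt (f y) y)) *
        (X a y * Tv f k b y * Tv f i c y * Tv f j d y) := by
    intro e
    simp only [Finset.mul_sum]
    exact Finset.sum_congr rfl fun b _ => Finset.sum_congr rfl fun c _ =>
      Finset.sum_congr rfl fun d _ => by ring
  simp only [e1]
  have e2 : ∀ b c d, RL G a b c d (pt (f y) y) * X a y * Tv f k b y * Tv f i c y *
      Tv f j d y = ∑ e, (G (pt (f y) y) a e * Rm G e b c d (pt (f y) y)) *
        (X a y * Tv f k b y * Tv f i c y * Tv f j d y) := by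
    intro b c d
    unfold RL
    rw [← Finset.sum_mul]
    ring
  simp only [e2]
  calc _ = ∑ b, ∑ c, ∑ e, ∑ d, (G (pt (f y) y) a e * Rm G e b c d (pt (f y) y)) *
        (X a y * Tv f k b y * Tv f i c y * Tv f j d y) :=
        Finset.sum_congr rfl fun b _ => Finset.sum_congr rfl fun c _ => Finset.sum_comm
    _ = ∑ b, ∑ e, ∑ c, ∑ d, (G (pt (f y) y) a e * Rm G e b c d (pt (f y) y)) *
        (X a y * Tv f k b y * Tv f i c y * Tv f j d y) :=
        Finset.sum_congr rfl fun b _ => Finset.sum_comm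
    _ = _ := Finset.sum_comm

lemma DD_dec (hy : y ∈ W) (i j k : Fin n) (a : Fin (n + 1)) :
    Dv G f i (Dv G f j (Tv f k)) a y - Dv G f j (Dv G f i (Tv f k)) a y =
      (cdK (indG G f) (indK G f) i j k y - cdK (indG G f) (indK G f) j i k y) * Nv G f a y +
      ∑ m, (Rm (indG G f) m k i j y + indK G f y j k *
        ∑ q, Stmt.up (indG G f) q m y * indK G f y i q - indK G f y i k *
        ∑ q, Stmt.up (indG G f) q m y * indK G f y j q) * Tv f m a y := by
  have hM := met_h hS
  rw [DD hS hy i j k a, DD hS hy j i k a]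
  have e1 : cdK (indG G f) (indK G f) i j k y - cdK (indG G f) (indK G f) j i k y =
      (Stmt.pd i (fun y => indK G f y j k) y +
        ∑ p, Stmt.chr (indG G f) p j k y * indK G f y i p) -
      (Stmt.pd j (fun y => indK G f y i k) y +
        ∑ p, Stmt.chr (indG G f) p i k y * indK G f y j p) := by
    unfold cdK
    simp only [Finset.sum_add_distrib]
    have e2 : ∑ l, Stmt.chr (indG G f) l j i y * indK G f y l k =
        ∑ l, Stmt.chr (indG G f) l i j y * indK G f y l k :=
      Finset.sum_congr rfl fun l _ => by rw [hM.chr_symm hy l j i]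
    rw [e2]
    ring
  have e3 : ∀ m, Rm (indG G f) m k i j y = (Stmt.pd i (Stmt.chr (indG G f) m j k) y +
        ∑ p, Stmt.chr (indG G f) m i p y * Stmt.chr (indG G f) p j k y) -
        (Stmt.pd j (Stmt.chr (indG G f) m i k) y +
        ∑ p, Stmt.chr (indG G f) m j p y * Stmt.chr (indG G f) p i k y) := by
    intro m
    unfold Rm
    rw [Finset.sum_sub_distrib]
    ring
  rw [e1]
  simp only [e3]
  have e4 : ∀ A B : Fin n → ℝ, ∑ m, A m * Tv f m a y - ∑ m, B m * Tv f m a y =
      ∑ m, (A m - B m) * Tv f m a y := fun A B => by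
    rw [← Finset.sum_sub_distrib]
    exact Finset.sum_congr rfl fun m _ => by ring
  rw [add_sub_add_comm, e4, ← sub_mul]
  congr 1
  exact Finset.sum_congr rfl fun m _ => by ring

theorem gauss_eq' (hC : Comm G f W) (hy : y ∈ W) (i j k l : Fin n) :
    ∑ a, ∑ b, ∑ c, ∑ d, RL G a b c d (pt (f y) y) * Tv f l a y * Tv f k b y * Tv f i c y *
      Tv f j d y = RL (indG G f) l k i j y + indK G f y j k * indK G f y i l -
        indK G f y i k * indK G f y j l := by
  have hM := met_h hS
  rw [RT_ip hS hC hy i j k (Tv f l), ip_lin (fun a => DD_dec hS hy i j k a),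
    ip_symm hS hy (Tv f l), ip_N_T hS hy, mul_zero, zero_add]
  have e1 : ∀ m, ip G f (Tv f l) (Tv f m) y = indG G f y l m := fun _ => rfl
  simp only [e1]
  have e2 : ∀ p, ∑ m, (∑ q, Stmt.up (indG G f) q m y * indK G f y p q) * indG G f y l m =
      indK G f y p l := by
    intro p
    simp only [Finset.sum_mul]
    rw [Finset.sum_comm]
    have : ∀ q, ∑ m, Stmt.up (indG G f) q m y * indK G f y p q * indG G f y l m =
        indK G f y p q * if q = l then 1 else 0 := by
      intro q
      rw [← hM.up_g hy q l, Finset.mul_sum]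
      exact Finset.sum_congr rfl fun m _ => by rw [hM.symm y hy l m]; ring
    simp only [this]
    simp
  have e3 : ∀ m, (Rm (indG G f) m k i j y + indK G f y j k *
      ∑ q, Stmt.up (indG G f) q m y * indK G f y i q - indK G f y i k *
      ∑ q, Stmt.up (indG G f) q m y * indK G f y j q) * indG G f y l m =
      indG G f y l m * Rm (indG G f) m k i j y + indK G f y j k *
      ((∑ q, Stmt.up (indG G f) q m y * indK G f y i q) * indG G f y l m) -
      indK G f y i k * ((∑ q, Stmt.up (indG G f) q m y * indK G f y j q) * indG G f y l m) :=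
    fun m => by ring
  simp only [e3, Finset.sum_sub_distrib, Finset.sum_add_distrib, ← Finset.mul_sum, e2]
  rfl

theorem codazzi_eq' (hC : Comm G f W) (hy : y ∈ W) (i j k : Fin n) :
    ∑ a, ∑ b, ∑ c, ∑ d, RL G a b c d (pt (f y) y) * Nv G f a y * Tv f k b y * Tv f i c y *
      Tv f j d y = -(cdK (indG G f) (indK G f) i j k y - cdK (indG G f) (indK G f) j i k y) := by
  rw [RT_ip hS hC hy i j k (Nv G f), ip_lin (fun a => DD_dec hS hy i j k a), ip_N_N hS hy]
  simp only [ip_N_T hS hy]
  simp

end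

end Vale.Agent.P366.GC
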