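import Vale.Agent.P366.H896.D.Defs

/-! STUBS: the equations of Gauss and Codazzi for a hypersurface `t = f(y)`. -/

open MeasureTheory Metric Filter Topology Set
open scoped ContDiff

noncomputable section
namespace Vale.Agent.P366.GC
open Vale.Agent.P366.Stmt Vale.Agent.P366.T2
open Vale.Agent.P366.H896 (CR)
open Vale.Agent.P366.Kerr (pt tng con indG indK lapse ein ric)

variable {n : ℕ} {G : Stmt.Field (n + 1)} {f : E n → ℝ} {U : Set (E (n + 1))} {W : Set (E n)}
  {X Y : Fin (n + 1) → E n → ℝ} {y : E n}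

/-! ### [L1]-[L5]: 896 -/

theorem met_h (hS : Sl G f U W) : Met (indG G f) W := sorry

theorem cr_comp (hS : Sl G f U W) {r : ℕ} (hr : r ≤ 4) {F : E (n + 1) → ℝ} (hF : CR r U F) :
    CR r W fun y => F (pt (f y) y) := sorry

/-- chain rule -/
theorem hp_comp (hS : Sl G f U W) (hy : y ∈ W) {F : E (n + 1) → ℝ} (hF : CR 1 U F) (i : Fin n) :
    HP i (fun y => F (pt (f y) y)) (∑ a, Tv f i a y * pd a F (pt (f y) y)) y := sorry

theorem cr_T (hS : Sl G f U W) (j : Fin n) (a : Fin (n + 1)) : CR 4 W (Tv f j a) := sorry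

theorem cr_N (hS : Sl G f U W) (a : Fin (n + 1)) : CR 4 W (Nv G f a) := sorry

/-- `∂_i T_j = ∂_j T_i` -/
theorem pdT_symm (hS : Sl G f U W) (hy : y ∈ W) (i j : Fin n) (a : Fin (n + 1)) :
    pd i (Tv f j a) y = pd j (Tv f i a) y := sorry

theorem ip_N_T (hS : Sl G f U W) (hy : y ∈ W) (j : Fin n) : ip G f (Nv G f) (Tv f j) y = 0 := sorry

theorem ip_N_N (hS : Sl G f U W) (hy : y ∈ W) : ip G f (Nv G f) (Nv G f) y = -1 := sorry

theorem up_dec (hS : Sl G f U W) (hy : y ∈ W) (a b : Fin (n + 1)) :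
    up G a b (pt (f y) y) = ∑ k, ∑ l, up (indG G f) k l y * Tv f k a y * Tv f l b y -
      Nv G f a y * Nv G f b y := sorry

theorem hp_ip (hS : Sl G f U W) (hX : ∀ a, CR 1 W (X a)) (hY : ∀ a, CR 1 W (Y a)) (hy : y ∈ W)
    (i : Fin n) : HP i (ip G f X Y) (ip G f (Dv G f i X) Y y + ip G f X (Dv G f i Y) y) y := sorry

/-- the Gauss formula -/
theorem gauss_formula (hS : Sl G f U W) (hy : y ∈ W) (i j : Fin n) (a : Fin (n + 1)) :
    Dv G f i (Tv f j) a y = ∑ l, chr (indG G f) l i j y * Tv f l a y +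
      indK G f y i j * Nv G f a y := sorry

/-- the Weingarten formula -/
theorem weingarten (hS : Sl G f U W) (hy : y ∈ W) (i : Fin n) (a : Fin (n + 1)) :
    Dv G f i (Nv G f) a y = ∑ k, ∑ l, up (indG G f) k l y * indK G f y i k * Tv f l a y := sorry

/-! ### [L6] 474: the commutator -/

theorem comm (hS : Sl G f U W) (hX : ∀ a, CR 2 W (X a)) (hy : y ∈ W) (i j : Fin n)
    (a : Fin (n + 1)) :
    Dv G f i (Dv G f j X) a y - Dv G f j (Dv G f i X) a y =
      ∑ b, ∑ c, ∑ d, Rm G a b c d (pt (f y) y) * X b y * Tv f i c y * Tv f j d y := sorry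

/-! ### [L7]: the momentum density (intrinsic) -/

theorem mom_eq {h K : Stmt.Field n} (hM : Met h W) (hK : ∀ i j, CR 1 W fun y => K y i j)
    (hKs : ∀ y ∈ W, ∀ i j, K y i j = K y j i) (hy : y ∈ W) (j : Fin n) :
    mom h K j y = ∑ i, ∑ k, up h i k y * (cdK h K k i j y - cdK h K j i k y) := sorry

/-! ### [L8]: the equations of Gauss and Codazzi (from L4-L6) -/

theorem gauss_eq (hS : Sl G f U W) (hy : y ∈ W) (i j k l : Fin n) :
    ∑ a, ∑ b, ∑ c, ∑ d, RL G a b c d (pt (f y) y) * Tv f l a y * Tv f k b y * Tv f i c y *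
      Tv f j d y = RL (indG G f) l k i j y + indK G f y j k * indK G f y i l -
        indK G f y i k * indK G f y j l := sorry

theorem codazzi_eq (hS : Sl G f U W) (hy : y ∈ W) (i j k : Fin n) :
    ∑ a, ∑ b, ∑ c, ∑ d, RL G a b c d (pt (f y) y) * Nv G f a y * Tv f k b y * Tv f i c y *
      Tv f j d y = -(cdK (indG G f) (indK G f) i j k y - cdK (indG G f) (indK G f) j i k y) :=
  sorry

/-! ### [L9]: contraction (algebra from L2, L7, L8 and the symmetries of RL) -/

theorem mu_eq (hS : Sl G f U W) (hy : y ∈ W) :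
    mu (indG G f) (indK G f) y =
      ∑ a, ∑ b, ein G a b (pt (f y) y) * Nv G f a y * Nv G f b y := sorry

theorem mom_ein (hS : Sl G f U W) (hy : y ∈ W) (j : Fin n) :
    mom (indG G f) (indK G f) j y =
      ∑ a, ∑ b, ein G a b (pt (f y) y) * Nv G f a y * Tv f j b y := sorry

/-! ### [L10]: the dominant energy condition of the data (from L2, L9) -/

theorem dec_pos (hS : Sl G f U W) (hy : y ∈ W) (hpd : (mat (indG G f) y).PosDef)
    (hD : covNorm (indG G f) (mom (indG G f) (indK G f)) y ≤ mu (indG G f) (indK G f) y)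
    {Z : Fin (n + 1) → ℝ} (hZ : ∑ a, ∑ b, G (pt (f y) y) a b * Z a * Z b ≤ 0)
    (hf : ∑ a, ∑ b, G (pt (f y) y) a b * Nv G f a y * Z b ≤ 0) :
    0 ≤ ∑ a, ∑ b, ein G a b (pt (f y) y) * Nv G f a y * Z b := sorry

end Vale.Agent.P366.GC
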